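import Vale.Agent.P302X.Small

open Finset Vale.Agent.P302X

namespace Vale.Agent.Results.P302.LPAtMostThree

variable {ι : Type*} [Fintype ι] [DecidableEq ι]

/-- packing the items larger than one third into four bins -/
theorem large3 (a : ι → ℝ) (ha0 : ∀ i, 0 < a i) (ha1 : ∀ i, a i ≤ 1) (hLP : LP a ≤ 3) :
    Packs a (univ.filter (fun i => 1 / ((3 : ℕ) : ℝ) < a i)) (3 + 1) := by
  classical
  set big : Finset ι := univ.filter (fun i => 1 / 2 < a i) with hbig
  set med : Finset ι := univ.filter (fun i => 1 / 3 < a i ∧ a i ≤ 1 / 2) with hmed
  have hun : univ.filter (fun i => 1 / ((3 : ℕ) : ℝ) < a i) = big ∪ med := by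
    ext i
    simp only [hbig, hmed, mem_filter, mem_univ, true_and, mem_union]
    push_cast
    constructor
    · intro h
      rcases le_or_gt (a i) (1 / 2) with h1 | h1
      · exact Or.inr ⟨h, h1⟩
      · exact Or.inl h1
    · rintro (h | h)
      · linarith
      · exact h.1
  have hdis : Disjoint big med := by
    rw [Finset.disjoint_left]
    intro i h1 h2
    rw [hbig, mem_filter] at h1
    rw [hmed, mem_filter] at h2
    linarith [h1.2, h2.2.2]
  have hcb : big.card ≤ 3 := by
    have h1 := count_le a ha0 ha1 1 le_rfl
    have e : univ.filter (fun i => 1 / (((1 : ℕ) : ℝ) + 1) < a i) = big := by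
      rw [hbig]
      refine filter_congr fun i _ => ?_
      norm_num
    rw [e] at h1
    have h2 : (big.card : ℝ) ≤ 3 := by
      push_cast at h1
      linarith
    exact_mod_cast h2
  have hcm : big.card + med.card ≤ 6 := by
    have h1 := count_le a ha0 ha1 2 (by norm_num)
    have e : univ.filter (fun i => 1 / (((2 : ℕ) : ℝ) + 1) < a i) = big ∪ med := by
      rw [← hun]
      refine filter_congr fun i _ => ?_
      norm_num
    rw [e, card_union_of_disjoint hdis] at h1
    have h2 : ((big.card + med.card : ℕ) : ℝ) ≤ 6 := by
      push_cast at h1 ⊢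
      linarith
    exact_mod_cast h2
  have szb : ∀ i ∈ big, a i ≤ 1 / ((1 : ℕ) : ℝ) := fun i _ => by
    have := ha1 i
    norm_num
    exact this
  have szm : ∀ i ∈ med, a i ≤ 1 / ((2 : ℕ) : ℝ) := fun i hi => by
    rw [hmed, mem_filter] at hi
    have := hi.2.2
    norm_num
    linarith
  rw [hun]
  by_cases hfit : ∃ i ∈ big, ∃ j ∈ med, a i + a j ≤ 1
  · obtain ⟨i, hi, j, hj, hij⟩ := hfit
    have hne : i ≠ j := fun h => (Finset.disjoint_left.1 hdis) hi (h ▸ hj)
    have hpair : Packs a {i, j} 1 := by
      refine ⟨fun _ => 0, fun b => ?_⟩
      refine (sum_le_sum_of_subset_of_nonneg (filter_subset _ _)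
        fun k _ _ => (ha0 k).le).trans ?_
      rw [sum_pair hne]
      exact hij
    have hcb' : (big.erase i).card + 1 = big.card := card_erase_add_one hi
    have hcm' : (med.erase j).card + 1 = med.card := card_erase_add_one hj
    have hdis' : Disjoint (big.erase i) (med.erase j) :=
      hdis.mono (erase_subset _ _) (erase_subset _ _)
    have hdis2 : Disjoint ({i, j} : Finset ι) (big.erase i ∪ med.erase j) := by
      rw [Finset.disjoint_left]
      intro k hk hk2
      rw [mem_insert, mem_singleton] at hk
      rw [mem_union, mem_erase, mem_erase] at hk2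
      rcases hk with rfl | rfl
      · rcases hk2 with h | h
        · exact h.1 rfl
        · exact (Finset.disjoint_left.1 hdis) hi h.2
      · rcases hk2 with h | h
        · exact (Finset.disjoint_left.1 hdis) h.2 hj
        · exact h.1 rfl
    have hall : ({i, j} : Finset ι) ∪ (big.erase i ∪ med.erase j) = big ∪ med := by
      ext k
      simp only [mem_union, mem_insert, mem_singleton, mem_erase]
      by_cases h1 : k = i
      · subst h1
        simp [hi]
      · by_cases h2 : k = j
        · subst h2
          simp [hj]
        · simp [h1, h2]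
    have hrest : Packs a (big.erase i ∪ med.erase j) 3 := by
      rcases Nat.lt_or_ge big.card 3 with h3 | h3
      · exact packs_union a (packs_blocks a (big.erase i) 1 1 le_rfl le_rfl (by omega)
          fun k hk => szb k (mem_of_mem_erase hk)) (packs_blocks a (med.erase j) 2 2 (by norm_num)
          (by norm_num) (by omega) fun k hk => szm k (mem_of_mem_erase hk)) hdis'
      · exact packs_union a (packs_blocks a (big.erase i) 1 2 le_rfl (by norm_num) (by omega)
          fun k hk => szb k (mem_of_mem_erase hk)) (packs_blocks a (med.erase j) 2 1 (by norm_num)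
          le_rfl (by omega) fun k hk => szm k (mem_of_mem_erase hk)) hdis'
    have h := packs_union a hpair hrest hdis2
    rw [hall] at h
    exact h
  · push Not at hfit
    have h2L : 2 * big.card + med.card ≤ 6 := by
      have h := weight_LP a ha1 (fun x => (if 1 / (((1 : ℕ) : ℝ) + 1) < x then 1 else 0)
        + (if 1 / (((2 : ℕ) : ℝ) + 1) < x then 1 else 0))
        (fun x => by split_ifs <;> norm_num) 2 (by norm_num) (fun c hc => by
          simp only [add_mul, sum_add_distrib]
          have hc1 := config_count a ha0 c hc 1
          have hc2 := config_count a ha0 c hc 2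
          by_cases hex : ∃ σ ∈ c.support, (1 / 2 : ℝ) < σ
          · obtain ⟨σ, hσ, hσ2⟩ := hex
            have heq : ∑ τ ∈ c.support,
                (if 1 / (((2 : ℕ) : ℝ) + 1) < τ then (1 : ℝ) else 0) * (c τ : ℝ)
                = ∑ τ ∈ c.support,
                (if 1 / (((1 : ℕ) : ℝ) + 1) < τ then (1 : ℝ) else 0) * (c τ : ℝ) := by
              refine sum_congr rfl fun τ hτ => ?_
              congr 1
              by_cases h3 : (1 / 2 : ℝ) < τ
              · rw [if_pos (by push_cast; linarith), if_pos (by push_cast; linarith)]
              · have h4 : ¬ (1 / 3 : ℝ) < τ := by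
                  intro h4
                  obtain ⟨i, hi⟩ := hc.1 σ hσ
                  obtain ⟨j, hj⟩ := hc.1 τ hτ
                  have h5 := hfit i (by rw [hbig, mem_filter]; exact ⟨mem_univ _, hi ▸ hσ2⟩) j
                    (by rw [hmed, mem_filter]; exact ⟨mem_univ _, hj ▸ h4, hj ▸ not_lt.1 h3⟩)
                  rw [hi, hj] at h5
                  have hne : σ ≠ τ := by
                    rintro rfl
                    exact h3 hσ2
                  have h6 : σ * (c σ : ℝ) + τ * (c τ : ℝ) ≤ 1 := by
                    refine le_trans ?_ hc.2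
                    rw [← sum_pair (f := fun σ => σ * (c σ : ℝ)) hne]
                    refine sum_le_sum_of_subset_of_nonneg ?_ fun ρ hρ _ => ?_
                    · intro ρ hρ
                      rw [mem_insert, mem_singleton] at hρ
                      rcases hρ with rfl | rfl
                      · exact hσ
                      · exact hτ
                    · obtain ⟨k, rfl⟩ := hc.1 ρ hρ
                      exact mul_nonneg (ha0 k).le (Nat.cast_nonneg _)
                  have h7 : (1 : ℝ) ≤ c σ := by
                    exact_mod_cast Nat.one_le_iff_ne_zero.2 (Finsupp.mem_support_iff.1 hσ)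
                  have h8 : (1 : ℝ) ≤ c τ := by
                    exact_mod_cast Nat.one_le_iff_ne_zero.2 (Finsupp.mem_support_iff.1 hτ)
                  nlinarith
                rw [if_neg (by push_cast; intro h; apply h4; linarith),
                  if_neg (by push_cast; intro h; apply h3; linarith)]
            rw [heq]
            push_cast at hc1 ⊢
            linarith
          · push Not at hex
            have hz : ∑ τ ∈ c.support,
                (if 1 / (((1 : ℕ) : ℝ) + 1) < τ then (1 : ℝ) else 0) * (c τ : ℝ) = 0 := by
              refine sum_eq_zero fun τ hτ => ?_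
              rw [if_neg, zero_mul]
              have := hex τ hτ
              push_cast
              intro h
              linarith
            rw [hz]
            push_cast at hc2 ⊢
            linarith)
      rw [sum_add_distrib] at h
      have e1 : ∑ i, (if 1 / (((1 : ℕ) : ℝ) + 1) < a i then (1 : ℝ) else 0) = big.card := by
        rw [hbig, card_filter]
        push_cast
        refine sum_congr rfl fun i _ => ?_
        norm_num
      have e2 : ∑ i, (if 1 / (((2 : ℕ) : ℝ) + 1) < a i then (1 : ℝ) else 0)
          = big.card + med.card := by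
        rw [← Nat.cast_add, ← card_union_of_disjoint hdis, ← hun, card_filter]
        push_cast
        refine sum_congr rfl fun i _ => ?_
        norm_num
      rw [e1, e2] at h
      have h2 : ((2 * big.card + med.card : ℕ) : ℝ) ≤ 6 := by
        push_cast
        linarith
      exact_mod_cast h2
    rcases Nat.lt_or_ge big.card 2 with h3 | h3
    · show Packs a (big ∪ med) (1 + 3)
      exact packs_union a (packs_blocks a big 1 1 le_rfl le_rfl (by omega) szb)
        (packs_blocks a med 2 3 (by norm_num) (by norm_num) (by omega) szm) hdis
    · rcases Nat.lt_or_ge big.card 3 with h4 | h4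
      · show Packs a (big ∪ med) (2 + 2)
        exact packs_union a (packs_blocks a big 1 2 le_rfl (by norm_num) (by omega) szb)
          (packs_blocks a med 2 2 (by norm_num) (by norm_num) (by omega) szm) hdis
      · exact packs_union a (packs_blocks a big 1 3 le_rfl (by norm_num) (by omega) szb)
          (packs_blocks a med 2 1 (by norm_num) le_rfl (by omega) szm) hdis

theorem packs_small (a : ι → ℝ) (ha0 : ∀ i, 0 < a i) (ha1 : ∀ i, a i ≤ 1) (m : ℕ) (hm : 1 ≤ m)
    (hm3 : m ≤ 3) (hLP : LP a ≤ m) : Packs a univ (m + 1) := by
  classical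
  refine reduction a ha0 ha1 m hm hLP ?_
  interval_cases m
  · refine packs_blocks a _ 1 2 le_rfl (by norm_num) ?_ (fun i _ => by
      have := ha1 i
      norm_num
      exact this)
    have : univ.filter (fun i => 1 / ((1 : ℕ) : ℝ) < a i) = ∅ := by
      rw [filter_eq_empty_iff]
      intro i _
      have := ha1 i
      norm_num
      exact this
    rw [this]
    simp
  · refine packs_blocks a _ 1 3 le_rfl (by norm_num) ?_ (fun i _ => by
      have := ha1 i
      norm_num
      exact this)
    have h1 := count_le a ha0 ha1 1 le_rfl
    have e : univ.filter (fun i => 1 / (((1 : ℕ) : ℝ) + 1) < a i)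
        = univ.filter (fun i => 1 / ((2 : ℕ) : ℝ) < a i) := by
      refine filter_congr fun i _ => ?_
      norm_num
    rw [e] at h1
    have h2 : ((univ.filter (fun i => 1 / ((2 : ℕ) : ℝ) < a i)).card : ℝ) ≤ (2 : ℕ) := by
      push_cast at h1 hLP ⊢
      linarith
    have h3 : (univ.filter (fun i => 1 / ((2 : ℕ) : ℝ) < a i)).card ≤ 2 := by exact_mod_cast h2
    omega
  · exact large3 a ha0 ha1 (by push_cast at hLP; exact hLP)

/-- The modified integer round-up conjecture for all instances whose configuration LP has value at
most `3`, and the reduction of the general case to the items above `1 / m`. -/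
theorem result (a : ι → ℝ) (ha0 : ∀ i, 0 < a i) (ha1 : ∀ i, a i ≤ 1) [Nonempty ι] :
    (LP a ≤ 3 → (OPT a : ℤ) ≤ ⌈LP a⌉ + 1) ∧
    (∀ m : ℕ, (m : ℤ) = ⌈LP a⌉ → Packs a (univ.filter (fun i => 1 / (m : ℝ) < a i)) (m + 1) →
      (OPT a : ℤ) ≤ ⌈LP a⌉ + 1) := by
  classical
  have hpos : 0 < LP a := by
    obtain ⟨i⟩ := ‹Nonempty ι›
    refine lt_of_lt_of_le (ha0 i) (le_trans ?_ (total_le a ha0 ha1))
    exact single_le_sum (f := a) (fun j _ => (ha0 j).le) (mem_univ i)
  have hceil : 1 ≤ ⌈LP a⌉ := Int.one_le_ceil_iff.2 hpos
  constructor
  · intro h3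
    obtain ⟨m, hm⟩ := Int.eq_ofNat_of_zero_le (le_trans zero_le_one hceil)
    have hm1 : 1 ≤ m := by
      rw [hm] at hceil
      exact_mod_cast hceil
    have hm3 : m ≤ 3 := by
      have : ⌈LP a⌉ ≤ 3 := Int.ceil_le.2 (by exact_mod_cast h3)
      rw [hm] at this
      exact_mod_cast this
    have hle : LP a ≤ m := by
      have := Int.le_ceil (LP a)
      rw [hm] at this
      exact_mod_cast this
    have h := Nat.sInf_le (s := {m | Packs a univ m}) (packs_small a ha0 ha1 m hm1 hm3 hle)
    rw [hm]
    exact_mod_cast h
  · intro m hm hl
    have hm1 : 1 ≤ m := by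
      rw [← hm] at hceil
      exact_mod_cast hceil
    have hle : LP a ≤ m := by
      have := Int.le_ceil (LP a)
      rw [← hm] at this
      exact_mod_cast this
    have h := Nat.sInf_le (s := {m | Packs a univ m}) (reduction a ha0 ha1 m hm1 hle hl)
    rw [← hm]
    exact_mod_cast h

end Vale.Agent.Results.P302.LPAtMostThree
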