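import Mathlib

/-!
# P302: in the modified integer round-up conjecture small items do not matter
-/

namespace Vale.Agent.Results.P302.SmallItems

/-- A bin packing instance: a finite multiset of rational sizes in `(0, 1]`. -/
def Instance (I : Multiset ℚ) : Prop := ∀ a ∈ I, 0 < a ∧ a ≤ 1

/-- `I` can be partitioned into at most `k` bins of total size at most `1`. -/
def Packs (I : Multiset ℚ) (k : ℕ) : Prop :=
  ∃ bins : Multiset (Multiset ℚ), bins.card ≤ k ∧ (∀ b ∈ bins, b.sum ≤ 1) ∧ bins.sum = I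

/-- `z` is a feasible solution of the Gilmore-Gomory linear programme of `I`: a nonnegative
weight on configurations (multisets of sizes occurring in `I`, of total size at most `1`) that
covers every size `σ` at least as often as it occurs in `I`. -/
structure Feasible (I : Multiset ℚ) (z : Multiset ℚ →₀ ℝ) : Prop where
  nonneg : ∀ c, 0 ≤ z c
  config : ∀ c ∈ z.support, (∀ s ∈ c, s ∈ I) ∧ c.sum ≤ 1
  cover : ∀ s ∈ I, (I.count s : ℝ) ≤ z.sum fun c x => x * (c.count s : ℝ)

/-- the value of a solution -/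
noncomputable def val (z : Multiset ℚ →₀ ℝ) : ℝ := z.sum fun _ x => x

/-- `OPT(I) ≤ ⌈LP(I)⌉ + 1`: for every feasible solution `z` of the linear programme, `I` can be
packed into `⌈val z⌉ + 1` bins. -/
def MIRUP (I : Multiset ℚ) : Prop :=
  ∀ z, Feasible I z → Packs I (⌈val z⌉₊ + 1)

/-- every item is larger than `1 / (LP(I) + 1)`, that is `a * (val z + 1) > 1` for every item `a`
and every feasible solution `z` -/
def AllLarge (I : Multiset ℚ) : Prop :=
  ∀ a ∈ I, ∀ z, Feasible I z → 1 < (a : ℝ) * (val z + 1)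

theorem val_nonneg {I : Multiset ℚ} {z : Multiset ℚ →₀ ℝ} (h : Feasible I z) : 0 ≤ val z :=
  Finset.sum_nonneg fun c _ => h.nonneg c

theorem sum_le_val {I : Multiset ℚ} (hI : Instance I) {z : Multiset ℚ →₀ ℝ}
    (h : Feasible I z) : ((I.sum : ℚ) : ℝ) ≤ val z := by
  have h1 : I.sum = ∑ s ∈ I.toFinset, (I.count s : ℚ) * s := by
    rw [Finset.sum_multiset_count]
    refine Finset.sum_congr rfl fun s _ => ?_
    rw [nsmul_eq_mul]
  rw [h1]
  push_cast
  calc ∑ s ∈ I.toFinset, (I.count s : ℝ) * (s : ℝ)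
      ≤ ∑ s ∈ I.toFinset, (z.sum fun c x => x * (c.count s : ℝ)) * (s : ℝ) := by
        refine Finset.sum_le_sum fun s hs => ?_
        have hs' := Multiset.mem_toFinset.1 hs
        have h2 : (0 : ℝ) ≤ (s : ℝ) := by exact_mod_cast (hI s hs').1.le
        exact mul_le_mul_of_nonneg_right (h.cover s hs') h2
    _ = ∑ c ∈ z.support, z c * ∑ s ∈ I.toFinset, (c.count s : ℝ) * (s : ℝ) := by
        simp only [Finsupp.sum, Finset.sum_mul, Finset.mul_sum]
        rw [Finset.sum_comm]
        refine Finset.sum_congr rfl fun c _ => Finset.sum_congr rfl fun s _ => by ring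
    _ ≤ ∑ c ∈ z.support, z c * 1 := by
        refine Finset.sum_le_sum fun c hc => mul_le_mul_of_nonneg_left ?_ (h.nonneg c)
        obtain ⟨h3, h4⟩ := h.config c hc
        have h5 : c.sum = ∑ s ∈ I.toFinset, (c.count s : ℚ) * s := by
          rw [Finset.sum_multiset_count]
          rw [Finset.sum_subset (s₁ := c.toFinset) (s₂ := I.toFinset)]
          · refine Finset.sum_congr rfl fun s _ => ?_
            rw [nsmul_eq_mul]
          · intro s hs
            exact Multiset.mem_toFinset.2 (h3 s (Multiset.mem_toFinset.1 hs))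
          · intro s _ hs
            have : c.count s = 0 := by
              rw [Multiset.count_eq_zero]
              exact fun hm => hs (Multiset.mem_toFinset.2 hm)
            rw [this, zero_smul]
        have h6 : ((c.sum : ℚ) : ℝ) ≤ 1 := by exact_mod_cast h4
        rw [h5] at h6
        push_cast at h6
        exact h6
    _ = val z := by simp [val, Finsupp.sum]

/-- restriction of a feasible solution -/
theorem feasible_tail {a : ℚ} {J : Multiset ℚ} {z : Multiset ℚ →₀ ℝ} (hI : Instance (a ::ₘ J))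
    (h : Feasible (a ::ₘ J) z) : ∃ z', Feasible J z' ∧ val z' = val z := by
  classical
  refine ⟨z.mapDomain (fun c => c.filter (· ∈ J)), ⟨?_, ?_, ?_⟩, ?_⟩
  · intro c
    rw [Finsupp.mapDomain, Finsupp.sum_apply]
    refine Finset.sum_nonneg fun d _ => ?_
    show (0 : ℝ) ≤ (Finsupp.single (d.filter (· ∈ J)) (z d)) c
    rw [Finsupp.single_apply]
    split_ifs
    · exact h.nonneg d
    · exact le_refl _
  · intro c hc
    have h1 := Finsupp.mapDomain_support hc
    obtain ⟨d, hd, rfl⟩ := Finset.mem_image.1 h1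
    obtain ⟨h3, h4⟩ := h.config d hd
    refine ⟨fun s hs => (Multiset.mem_filter.1 hs).2, ?_⟩
    have h5 : d.sum = (d.filter (· ∈ J)).sum + (d.filter (fun s => ¬ s ∈ J)).sum := by
      rw [← Multiset.sum_add, Multiset.filter_add_not]
    have h6 : 0 ≤ (d.filter (fun s => ¬ s ∈ J)).sum := by
      refine Multiset.sum_nonneg fun s hs => ?_
      exact (hI s (h3 s (Multiset.mem_of_mem_filter hs))).1.le
    linarith
  · intro s hs
    rw [Finsupp.sum_mapDomain_index (fun _ => by simp) (fun _ _ _ => by ring)]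
    have h1 := h.cover s (Multiset.mem_cons_of_mem hs)
    have h2 : (J.count s : ℝ) ≤ ((a ::ₘ J).count s : ℝ) := by
      exact_mod_cast Multiset.count_le_of_le s (Multiset.le_cons_self J a)
    refine h2.trans (h1.trans (le_of_eq ?_))
    refine Finsupp.sum_congr fun c _ => ?_
    rw [Multiset.count_filter_of_pos hs]
  · unfold val
    rw [Finsupp.sum_mapDomain_index (fun _ => rfl) (fun _ _ _ => rfl)]

theorem sum_sum_ge (t : ℚ) (bins : Multiset (Multiset ℚ)) (h : ∀ b ∈ bins, t ≤ b.sum) :
    (bins.card : ℚ) * t ≤ bins.sum.sum := by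
  induction bins using Multiset.induction_on with
  | empty => simp
  | cons b bins ih =>
    rw [Multiset.sum_cons, Multiset.sum_add, Multiset.card_cons]
    have h1 := h b (Multiset.mem_cons_self b bins)
    have h2 := ih fun c hc => h c (Multiset.mem_cons_of_mem hc)
    push_cast
    linarith

/-- one more small item -/
theorem packs_cons {a : ℚ} {J : Multiset ℚ} {k : ℕ} (ha : a ≤ 1) (h : Packs J k)
    (hs : ((a ::ₘ J).sum : ℚ) < a + k * (1 - a)) : Packs (a ::ₘ J) k := by
  obtain ⟨bins, h1, h2, h3⟩ := h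
  rcases Nat.lt_or_ge bins.card k with h4 | h4
  · refine ⟨{a} ::ₘ bins, ?_, ?_, ?_⟩
    · rw [Multiset.card_cons]; omega
    · intro c hc
      rcases Multiset.mem_cons.1 hc with rfl | hc
      · rw [Multiset.sum_singleton]; exact ha
      · exact h2 c hc
    · rw [Multiset.sum_cons, h3, Multiset.singleton_add]
  · by_cases h5 : ∃ b ∈ bins, b.sum ≤ 1 - a
    · obtain ⟨b, hb, hb1⟩ := h5
      obtain ⟨rest, rfl⟩ := Multiset.exists_cons_of_mem hb
      refine ⟨(a ::ₘ b) ::ₘ rest, ?_, ?_, ?_⟩
      · simpa using h1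
      · intro c hc
        rcases Multiset.mem_cons.1 hc with rfl | hc
        · rw [Multiset.sum_cons]; linarith
        · exact h2 c (Multiset.mem_cons_of_mem hc)
      · rw [← h3]
        simp [Multiset.sum_cons, Multiset.cons_add]
    · push Not at h5
      exfalso
      have h6 := sum_sum_ge (1 - a) bins fun b hb => (h5 b hb).le
      rw [h3] at h6
      have h7 : (bins.card : ℚ) = k := by exact_mod_cast le_antisymm h1 h4
      rw [h7] at h6
      rw [Multiset.sum_cons] at hs
      linarith

theorem packs_mono {I : Multiset ℚ} {k l : ℕ} (h : Packs I k) (hkl : k ≤ l) : Packs I l := by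
  obtain ⟨bins, h1, h2, h3⟩ := h
  exact ⟨bins, h1.trans hkl, h2, h3⟩

/-- The modified integer round-up conjecture `OPT(I) ≤ ⌈LP(I)⌉ + 1` holds for all instances if
and only if it holds for the instances in which every item is larger than `1 / (LP(I) + 1)`. -/
theorem result : (∀ I, Instance I → MIRUP I) ↔ (∀ I, Instance I → AllLarge I → MIRUP I) := by
  refine ⟨fun h I hI _ => h I hI, fun h I => ?_⟩
  induction I using Multiset.strongInductionOn with
  | ih I ih =>
  intro hI
  by_cases hL : AllLarge I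
  · exact h I hI hL
  · unfold AllLarge at hL
    push Not at hL
    obtain ⟨a, ha, z₁, hz₁, h1⟩ := hL
    intro z hz
    -- the better of the two solutions
    obtain ⟨z₂, hz₂, h2, h3⟩ : ∃ z₂, Feasible I z₂ ∧ (a : ℝ) * (val z₂ + 1) ≤ 1 ∧
        val z₂ ≤ val z := by
      rcases le_total (val z) (val z₁) with h4 | h4
      · refine ⟨z, hz, ?_, le_refl _⟩
        have h5 : (0 : ℝ) ≤ (a : ℝ) := by exact_mod_cast (hI a ha).1.le
        have h6 := mul_le_mul_of_nonneg_left h4 h5
        linarith
      · exact ⟨z₁, hz₁, h1, h4⟩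
    refine packs_mono (k := ⌈val z₂⌉₊ + 1) ?_ (Nat.add_le_add_right (Nat.ceil_mono h3) 1)
    obtain ⟨J, rfl⟩ := Multiset.exists_cons_of_mem ha
    obtain ⟨z₃, hz₃, h4⟩ := feasible_tail hI hz₂
    have hJ := ih J (Multiset.lt_cons_self J a) (fun b hb => hI b (Multiset.mem_cons_of_mem hb))
      z₃ hz₃
    rw [h4] at hJ
    refine packs_cons (hI a ha).2 hJ ?_
    have h5 := sum_le_val hI hz₂
    have h6 : (0 : ℝ) < (a : ℝ) := by exact_mod_cast (hI a ha).1
    have h7 : (a : ℝ) ≤ 1 := by exact_mod_cast (hI a ha).2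
    have h8 := Nat.le_ceil (val z₂)
    have h9 : (((a ::ₘ J).sum : ℚ) : ℝ) < ((a + ((⌈val z₂⌉₊ + 1 : ℕ) : ℚ) * (1 - a) : ℚ) : ℝ) := by
      have h10 : ((a + ((⌈val z₂⌉₊ + 1 : ℕ) : ℚ) * (1 - a) : ℚ) : ℝ)
          = (a : ℝ) + ((⌈val z₂⌉₊ : ℝ) + 1) * (1 - (a : ℝ)) := by
        push_cast
        ring
      rw [h10]
      have h11 := mul_le_mul_of_nonneg_right h8 (by linarith : (0 : ℝ) ≤ 1 - (a : ℝ))
      nlinarith
    exact Rat.cast_lt.1 h9

end Vale.Agent.Results.P302.SmallItems
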