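import Mathlib

namespace Vale.Agent.Results.P302.SmallLP

open Finset

/-- The items with sizes `a` can be partitioned into `k` bins of total size at most `1`. -/
def Packable {n : ℕ} (a : Fin n → ℚ) (k : ℕ) : Prop :=
  ∃ f : Fin n → Fin k, ∀ b, ∑ i ∈ univ.filter (fun i => f i = b), a i ≤ 1

/-- A configuration: multiplicities of item sizes occurring in the instance, total size at most
`1`. -/
def IsConfig {n : ℕ} (a : Fin n → ℚ) (c : ℚ →₀ ℕ) : Prop :=
  (∀ σ ∈ c.support, ∃ i, a i = σ) ∧ ∑ σ ∈ c.support, σ * c σ ≤ 1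

/-- A feasible solution of the configuration linear program. -/
def Feasible {n : ℕ} (a : Fin n → ℚ) (z : (ℚ →₀ ℕ) →₀ ℝ) : Prop :=
  (∀ c, 0 ≤ z c) ∧ (∀ c ∈ z.support, IsConfig a c) ∧
    ∀ σ : ℚ, ((univ.filter fun i => a i = σ).card : ℝ) ≤ ∑ c ∈ z.support, z c * c σ

/-- The value of a solution. -/
noncomputable def value (z : (ℚ →₀ ℕ) →₀ ℝ) : ℝ := ∑ c ∈ z.support, z c

theorem duality {n : ℕ} (a : Fin n → ℚ) (z : (ℚ →₀ ℕ) →₀ ℝ) (hz : Feasible a z) (y : ℚ → ℝ)
    (hy0 : ∀ σ, 0 ≤ y σ)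
    (hy : ∀ c, IsConfig a c → ∑ σ ∈ c.support, (c σ : ℝ) * y σ ≤ 1) :
    ∑ i, y (a i) ≤ value z := by
  classical
  rw [Finset.sum_comp y a]
  calc ∑ σ ∈ univ.image a, (univ.filter fun i => a i = σ).card • y σ
      ≤ ∑ σ ∈ univ.image a, (∑ c ∈ z.support, z c * c σ) * y σ := by
        refine sum_le_sum fun σ _ => ?_
        rw [nsmul_eq_mul]
        exact mul_le_mul_of_nonneg_right (hz.2.2 σ) (hy0 σ)
    _ = ∑ c ∈ z.support, z c * ∑ σ ∈ univ.image a, (c σ : ℝ) * y σ := by
        simp only [sum_mul, mul_sum]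
        rw [sum_comm]
        exact sum_congr rfl fun c _ => sum_congr rfl fun σ _ => by ring
    _ ≤ ∑ c ∈ z.support, z c * 1 := by
        refine sum_le_sum fun c hc => mul_le_mul_of_nonneg_left ?_ (hz.1 c)
        have hcfg := hz.2.1 c hc
        refine le_trans (le_of_eq ?_) (hy c hcfg)
        symm
        refine sum_subset ?_ ?_
        · intro σ hσ
          obtain ⟨i, hi⟩ := hcfg.1 σ hσ
          exact mem_image.2 ⟨i, mem_univ i, hi⟩
        · intro σ _ hσ
          rw [Finsupp.notMem_support_iff.1 hσ]; simp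
    _ = value z := by simp [value]

/-- greedy packing in decreasing order -/
theorem greedy {n : ℕ} (a : Fin n → ℚ) (m : ℕ) (hm : 0 < m)
    (H : ∀ (A : Finset (Fin n)) (i : Fin n) (f : Fin n → Fin m), i ∉ A → (∀ x ∈ A, a i ≤ a x) →
      ¬ ∀ b, 1 - a i < ∑ x ∈ A.filter (fun x => f x = b), a x) : Packable a m := by
  classical
  have key : ∀ A : Finset (Fin n), ∃ f : Fin n → Fin m,
      ∀ b, ∑ x ∈ A.filter (fun x => f x = b), a x ≤ 1 := by
    intro A
    induction A using Finset.induction_on_min_value a with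
    | empty => exact ⟨fun _ => ⟨0, hm⟩, fun b => by simp⟩
    | insert i A hi hmin ih =>
      obtain ⟨f, hf⟩ := ih
      have h1 := H A i f hi hmin
      push Not at h1
      obtain ⟨b0, hb0⟩ := h1
      refine ⟨Function.update f i b0, fun b => ?_⟩
      have hfil : ∀ b, (insert i A).filter (fun x => Function.update f i b0 x = b)
          = if b = b0 then insert i (A.filter (fun x => f x = b)) else A.filter (fun x => f x = b) := by
        intro b
        ext x
        by_cases hx : x = i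
        · subst hx
          by_cases hb : b = b0
          · simp [hb]
          · simp [hb, Ne.symm hb, hi]
        · by_cases hb : b = b0
          · simp [hb, hx, Function.update_of_ne hx]
          · simp [hb, hx, Function.update_of_ne hx]
      rw [hfil]
      split_ifs with hb
      · rw [sum_insert (by simp [hi]), hb]
        linarith
      · exact hf b
  obtain ⟨f, hf⟩ := key univ
  exact ⟨f, hf⟩

/-- dual weights -/
noncomputable def wt (s σ : ℚ) : ℝ := if σ < s then 0 else if σ ≤ 1 - s then 1 / 2 else 1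

theorem wt_nonneg (s σ : ℚ) : 0 ≤ wt s σ := by unfold wt; split_ifs <;> norm_num
theorem wt_le (s σ : ℚ) : wt s σ ≤ 1 := by unfold wt; split_ifs <;> norm_num

theorem wt_cfg {n : ℕ} (a : Fin n → ℚ) (ha : ∀ i, 0 < a i) (s : ℚ) (hs : 1 / 3 < s) (c : ℚ →₀ ℕ)
    (hc : IsConfig a c) : ∑ σ ∈ c.support, (c σ : ℝ) * wt s σ ≤ 1 := by
  classical
  set B := c.support.filter (fun σ => s ≤ σ) with hB
  have hpos : ∀ σ ∈ c.support, 0 < σ := by
    intro σ hσ
    obtain ⟨i, hi⟩ := hc.1 σ hσ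
    rw [← hi]; exact ha i
  have h1 : ∑ σ ∈ c.support, (c σ : ℝ) * wt s σ = ∑ σ ∈ B, (c σ : ℝ) * wt s σ := by
    rw [hB, sum_filter]
    refine sum_congr rfl fun σ _ => ?_
    by_cases h : s ≤ σ
    · rw [if_pos h]
    · rw [if_neg h]; unfold wt; rw [if_pos (not_le.1 h)]; ring
  have hBs : ∑ σ ∈ B, σ * (c σ : ℚ) ≤ 1 := by
    refine le_trans (sum_le_sum_of_subset_of_nonneg (filter_subset _ _) ?_) hc.2
    intro σ hσ _
    exact mul_nonneg (hpos σ hσ).le (Nat.cast_nonneg _)
  set N := ∑ σ ∈ B, c σ with hN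
  have hsN : s * (N : ℚ) ≤ 1 := by
    refine le_trans ?_ hBs
    rw [hN]; push_cast; rw [mul_sum]
    exact sum_le_sum fun σ hσ => mul_le_mul_of_nonneg_right (mem_filter.1 hσ).2 (Nat.cast_nonneg _)
  have hN2 : N ≤ 2 := by
    by_contra hc3
    have : (3 : ℚ) ≤ N := by exact_mod_cast (show 3 ≤ N by omega)
    nlinarith
  rw [h1]
  rcases Nat.lt_or_ge N 2 with hN1 | hN1
  · calc ∑ σ ∈ B, (c σ : ℝ) * wt s σ ≤ ∑ σ ∈ B, (c σ : ℝ) :=
          sum_le_sum fun σ _ => mul_le_of_le_one_right (Nat.cast_nonneg _) (wt_le s σ)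
      _ = (N : ℝ) := by rw [hN]; push_cast; rfl
      _ ≤ 1 := by exact_mod_cast (show N ≤ 1 by omega)
  · have hNe : N = 2 := by omega
    have hsmall : ∀ σ ∈ B, σ ≤ 1 - s := by
      intro σ hσ
      by_contra hcon
      push Not at hcon
      have hcσ : 1 ≤ c σ := by
        have := (mem_filter.1 hσ).1
        rw [Finsupp.mem_support_iff] at this; omega
      -- total at least σ + s
      have e : ∑ τ ∈ B, τ * (c τ : ℚ) = ∑ τ ∈ B, (τ - s) * (c τ : ℚ) + s * N := by
        rw [hN]; push_cast; rw [mul_sum, ← sum_add_distrib]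
        exact sum_congr rfl fun τ _ => by ring
      have e2 : (σ - s) * (c σ : ℚ) ≤ ∑ τ ∈ B, (τ - s) * (c τ : ℚ) :=
        single_le_sum (f := fun τ => (τ - s) * (c τ : ℚ)) (fun τ hτ =>
          mul_nonneg (by linarith [(mem_filter.1 hτ).2]) (Nat.cast_nonneg _)) hσ
      have e3 : (σ - s) * 1 ≤ (σ - s) * (c σ : ℚ) :=
        mul_le_mul_of_nonneg_left (by exact_mod_cast hcσ) (by linarith [(mem_filter.1 hσ).2])
      have e4 : (N : ℚ) = 2 := by exact_mod_cast hNe
      rw [e, e4] at hBs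
      linarith
    calc ∑ σ ∈ B, (c σ : ℝ) * wt s σ ≤ ∑ σ ∈ B, (c σ : ℝ) * (1 / 2) := by
          refine sum_le_sum fun σ hσ => mul_le_mul_of_nonneg_left ?_ (Nat.cast_nonneg _)
          unfold wt
          rw [if_neg (not_lt.2 (mem_filter.1 hσ).2), if_pos (hsmall σ hσ)]
      _ = (N : ℝ) * (1 / 2) := by rw [← sum_mul, hN]; push_cast; rfl
      _ ≤ 1 := by rw [hNe]; norm_num

theorem no_stuck {n : ℕ} (a : Fin n → ℚ) (ha : ∀ i, 0 < a i ∧ a i ≤ 1)
    (z : (ℚ →₀ ℕ) →₀ ℝ) (hz : Feasible a z) (m : ℕ) (hv : value z ≤ m)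
    (A : Finset (Fin n)) (i : Fin n) (f : Fin n → Fin m) (hi : i ∉ A)
    (hmin : ∀ x ∈ A, a i ≤ a x) (hs : 1 / 3 < a i)
    (hload : ∀ b, 1 - a i < ∑ x ∈ A.filter (fun x => f x = b), a x) : False := by
  classical
  have hd := duality a z hz (wt (a i)) (wt_nonneg _) (fun c hc => wt_cfg a (fun j => (ha j).1) (a i) hs c hc)
  have hbin : ∀ b, (1 : ℝ) ≤ ∑ x ∈ A.filter (fun x => f x = b), wt (a i) (a x) := by
    intro b
    by_cases hbig : ∃ x ∈ A.filter (fun x => f x = b), 1 - a i < a x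
    · obtain ⟨x, hx, hxb⟩ := hbig
      have h1 : wt (a i) (a x) = 1 := by
        unfold wt
        rw [if_neg (not_lt.2 (hmin x (mem_filter.1 hx).1)), if_neg (not_le.2 hxb)]
      rw [← h1]
      exact single_le_sum (f := fun x => wt (a i) (a x)) (fun x _ => wt_nonneg _ _) hx
    · push Not at hbig
      have hcard : 2 ≤ (A.filter (fun x => f x = b)).card := by
        by_contra hc
        have hl := hload b
        rcases Nat.lt_or_ge (A.filter (fun x => f x = b)).card 1 with h0 | h1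
        · have h00 : A.filter (fun x => f x = b) = ∅ := card_eq_zero.1 (by omega)
          rw [h00, sum_empty] at hl
          linarith [(ha i).2]
        · obtain ⟨x, hx⟩ := card_eq_one.1 (show (A.filter (fun x => f x = b)).card = 1 by omega)
          have := hbig x (by rw [hx]; exact mem_singleton_self x)
          rw [hx, sum_singleton] at hl
          linarith
      calc (1 : ℝ) ≤ ((A.filter (fun x => f x = b)).card : ℝ) * (1 / 2) := by
            have : (2 : ℝ) ≤ (A.filter (fun x => f x = b)).card := by exact_mod_cast hcard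
            linarith
        _ = ∑ x ∈ A.filter (fun x => f x = b), (1 / 2 : ℝ) := by rw [sum_const, nsmul_eq_mul]
        _ ≤ _ := by
            refine sum_le_sum fun x hx => ?_
            unfold wt
            rw [if_neg (not_lt.2 (hmin x (mem_filter.1 hx).1)), if_pos (hbig x hx)]
  have hwi : (0 : ℝ) < wt (a i) (a i) := by
    unfold wt
    rw [if_neg (lt_irrefl _)]
    split_ifs <;> norm_num
  have hsum : ∑ b, ∑ x ∈ A.filter (fun x => f x = b), wt (a i) (a x) = ∑ x ∈ A, wt (a i) (a x) :=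
    sum_fiberwise A f _
  have h1 : (m : ℝ) ≤ ∑ x ∈ A, wt (a i) (a x) := by
    rw [← hsum]
    calc (m : ℝ) = ∑ _b : Fin m, (1 : ℝ) := by simp
      _ ≤ _ := sum_le_sum fun b _ => hbin b
  have h2 : ∑ x ∈ A, wt (a i) (a x) + wt (a i) (a i) ≤ ∑ j, wt (a i) (a j) := by
    rw [add_comm, ← sum_insert (f := fun x => wt (a i) (a x)) hi]
    exact sum_le_sum_of_subset_of_nonneg (subset_univ _) fun j _ _ => wt_nonneg _ _
  linarith

theorem total_le {n : ℕ} (a : Fin n → ℚ) (ha : ∀ i, 0 < a i ∧ a i ≤ 1)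
    (z : (ℚ →₀ ℕ) →₀ ℝ) (hz : Feasible a z) : ((∑ i, a i : ℚ) : ℝ) ≤ value z := by
  have h := duality a z hz (fun σ => max (σ : ℝ) 0) (fun σ => le_max_right _ _) ?_
  · refine le_trans (le_of_eq ?_) h
    push_cast
    exact sum_congr rfl fun i _ => (max_eq_left (by exact_mod_cast (ha i).1.le)).symm
  · intro c hc
    have h2 := hc.2
    have e : ∑ σ ∈ c.support, (c σ : ℝ) * max (σ : ℝ) 0
        = ((∑ σ ∈ c.support, σ * (c σ : ℚ) : ℚ) : ℝ) := by
      push_cast
      refine sum_congr rfl fun σ hσ => ?_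
      obtain ⟨i, hi⟩ := hc.1 σ hσ
      have h0 : 0 ≤ (σ : ℝ) := by rw [← hi]; exact_mod_cast (ha i).1.le
      rw [max_eq_left h0]; ring
    rw [e]
    exact_mod_cast h2

/-- main -/
theorem result (n : ℕ) (a : Fin n → ℚ) (ha : ∀ i, 0 < a i ∧ a i ≤ 1)
    (z : (ℚ →₀ ℕ) →₀ ℝ) (hz : Feasible a z) :
    (value z ≤ 3 → Packable a (⌈value z⌉₊ + 1)) ∧
    ((∀ i, 1 / 3 < a i) → Packable a ⌈value z⌉₊) := by
  classical
  have hv := Nat.le_ceil (value z)
  constructor
  · intro h3
    refine greedy a _ (Nat.succ_pos _) ?_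
    intro A i f hi hmin hload
    have hk3 : ⌈value z⌉₊ ≤ 3 := Nat.ceil_le.2 (by exact_mod_cast h3)
    have hs : 1 / 3 < a i := by
      by_contra hc
      push Not at hc
      have ht := total_le a ha z hz
      have hT : ((∑ i, a i : ℚ) : ℝ) ≤ ((⌈value z⌉₊ : ℚ) : ℝ) := by
        push_cast
        push_cast at ht
        linarith
      have hT' : ∑ i, a i ≤ (⌈value z⌉₊ : ℚ) := by exact_mod_cast hT
      have hsum : ∑ b, ∑ x ∈ A.filter (fun x => f x = b), a x = ∑ x ∈ A, a x := sum_fiberwise A f _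
      have h1 : ((⌈value z⌉₊ + 1 : ℕ) : ℚ) * (1 - a i) ≤ ∑ x ∈ A, a x := by
        rw [← hsum]
        calc ((⌈value z⌉₊ + 1 : ℕ) : ℚ) * (1 - a i) = ∑ _b : Fin (⌈value z⌉₊ + 1), (1 - a i) := by
              rw [sum_const, card_univ, Fintype.card_fin, nsmul_eq_mul]
          _ ≤ _ := sum_le_sum fun b _ => (hload b).le
      have h1' : ((⌈value z⌉₊ + 1 : ℕ) : ℚ) * (1 - a i) < ∑ x ∈ A, a x := by
        rw [← hsum]
        calc ((⌈value z⌉₊ + 1 : ℕ) : ℚ) * (1 - a i) = ∑ _b : Fin (⌈value z⌉₊ + 1), (1 - a i) := by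
              rw [sum_const, card_univ, Fintype.card_fin, nsmul_eq_mul]
          _ < _ := sum_lt_sum_of_nonempty ⟨0, mem_univ _⟩ fun b _ => hload b
      have h2 : ∑ x ∈ A, a x + a i ≤ ∑ j, a j := by
        rw [add_comm, ← sum_insert hi]
        exact sum_le_sum_of_subset_of_nonneg (subset_univ _) fun j _ _ => (ha j).1.le
      have hk : (⌈value z⌉₊ : ℚ) ≤ 3 := by exact_mod_cast hk3
      have hk0 : (0 : ℚ) ≤ (⌈value z⌉₊ : ℚ) := Nat.cast_nonneg _
      push_cast at h1'
      have ha0 := (ha i).1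
      nlinarith
    exact no_stuck a ha z hz _ (by push_cast; linarith) A i f hi hmin hs hload
  · intro h13
    rcases Nat.eq_zero_or_pos n with h0 | hn
    · subst h0
      exact ⟨fun i => i.elim0, fun b => by simp⟩
    · have ht := total_le a ha z hz
      have hpos : 0 < value z := by
        refine lt_of_lt_of_le ?_ ht
        have : 0 < ∑ i, a i := sum_pos (fun i _ => (ha i).1) ⟨⟨0, hn⟩, mem_univ _⟩
        exact_mod_cast this
      refine greedy a _ (Nat.ceil_pos.2 hpos) ?_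
      intro A i f hi hmin hload
      exact no_stuck a ha z hz _ hv A i f hi hmin (h13 i) hload

end Vale.Agent.Results.P302.SmallLP
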